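import Mathlib

/-!
P024, block [W5] (helper379): multiplicative independence of the conjugates of generators of
powers of degree-one primes.
-/

namespace Vale.Agent.P024.H379.W

open NumberField

section
variable {D N : Type*} [Field D] [NumberField D] [Field N] [NumberField N]

/-- integers are everything modulo a degree-one prime -/
theorem exists_int (v : Ideal (𝓞 D)) {q : ℕ} (hq : q.Prime) (hv : Ideal.absNorm v = q) (a : 𝓞 D) :
    ∃ n : ℤ, a - n ∈ v := by
  have : Fact q.Prime := ⟨hq⟩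
  have hcard : Nat.card (𝓞 D ⧸ v) = q := by
    rw [← hv, Ideal.absNorm_apply, Submodule.cardQuot_apply]
  have h1 : (1 : 𝓞 D ⧸ v) ≠ 0 := by
    intro h
    have : Subsingleton (𝓞 D ⧸ v) := subsingleton_of_zero_eq_one h.symm
    have h2 : Nat.card (𝓞 D ⧸ v) = 1 := Nat.card_unique
    rw [hcard] at h2
    exact hq.one_lt.ne' h2
  have h2 := mem_zmultiples_of_prime_card (G := 𝓞 D ⧸ v) hcard h1
    (g' := Ideal.Quotient.mk v a)
  obtain ⟨n, hn⟩ := AddSubgroup.mem_zmultiples_iff.mp h2
  refine ⟨n, ?_⟩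
  rw [← Ideal.Quotient.eq_zero_iff_mem, map_sub, ← hn]
  simp

theorem isMax_of_norm (v : Ideal (𝓞 D)) {q : ℕ} (hq : q.Prime) (hv : Ideal.absNorm v = q) :
    v.IsMaximal := by
  have hp : v.IsPrime := Ideal.isPrime_of_irreducible_absNorm (by rw [hv]; exact hq)
  refine hp.isMaximal ?_
  rintro rfl
  rw [Ideal.absNorm_bot] at hv
  exact hq.ne_zero hv.symm

omit [NumberField N] in
/-- the prime of `𝓞 N` below which `v` sits through `σ` -/
theorem exists_over (σ : D →+* N) (v : Ideal (𝓞 D)) {q : ℕ} (hq : q.Prime)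
    (hv : Ideal.absNorm v = q) (h : ℕ) (hh : 0 < h) (x : 𝓞 D) (hx : Ideal.span {x} = v ^ h) :
    ∃ P : IsDedekindDomain.HeightOneSpectrum (𝓞 N),
      RingOfIntegers.mapRingHom σ x ∈ P.asIdeal := by
  have hx0 : x ≠ 0 := by
    rintro rfl
    have := congrArg Ideal.absNorm hx
    rw [map_pow, hv] at this
    simp only [Set.singleton_zero, Ideal.span_zero, Ideal.absNorm_bot] at this
    exact (pow_pos hq.pos h).ne this
  have hnu : ¬ IsUnit (RingOfIntegers.mapRingHom σ x) := by
    intro hu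
    obtain ⟨y, hy⟩ := isUnit_iff_exists_inv.mp hu
    -- the inverse of `x` is integral
    have hxD : (x : D) ≠ 0 := by
      intro h0
      exact hx0 (RingOfIntegers.ext (by simpa using h0))
    have hy' : σ ((x : D)⁻¹) = (y : N) := by
      have h1 := congrArg (fun z : 𝓞 N => (z : N)) hy
      have h2 : σ (x : D) * (y : N) = 1 := by simpa using h1
      have h3 : σ (x : D) ≠ 0 := by
        rw [Ne, map_eq_zero]; exact hxD
      rw [map_inv₀]
      field_simp
      rw [← h2]
    have hint : IsIntegral ℤ ((x : D)⁻¹) := by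
      have h1 : IsIntegral ℤ (σ ((x : D)⁻¹)) := by
        rw [hy']
        exact y.isIntegral_coe
      exact (isIntegral_algHom_iff (σ.toIntAlgHom) σ.injective).mp h1
    have hxu : IsUnit x := by
      refine isUnit_iff_exists_inv.mpr ⟨⟨(x : D)⁻¹, hint⟩, ?_⟩
      apply RingOfIntegers.ext
      change (x : D) * (x : D)⁻¹ = 1
      exact mul_inv_cancel₀ hxD
    have h1 : Ideal.span {x} = ⊤ := Ideal.span_singleton_eq_top.mpr hxu
    rw [hx] at h1
    have h2 := congrArg Ideal.absNorm h1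
    rw [map_pow, hv, Ideal.absNorm_top] at h2
    have := Nat.one_lt_pow hh.ne' hq.one_lt
    omega
  obtain ⟨P, hP, hxP⟩ := exists_max_ideal_of_mem_nonunits hnu
  have hP0 : P ≠ ⊥ := by
    rintro rfl
    have h1 : RingOfIntegers.mapRingHom σ x = 0 := by simpa using hxP
    have h2 := congrArg (fun z : 𝓞 N => (z : N)) h1
    have h3 : σ (x : D) = 0 := by simpa using h2
    rw [map_eq_zero] at h3
    exact hx0 (RingOfIntegers.ext (by simpa using h3))
  exact ⟨⟨P, hP.isPrime, hP0⟩, hxP⟩

omit [NumberField D] [NumberField N] in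
theorem comap_eq (σ : D →+* N) (P : IsDedekindDomain.HeightOneSpectrum (𝓞 N)) (v : Ideal (𝓞 D))
    (h : ℕ) (x : 𝓞 D)
    (hx : Ideal.span {x} = v ^ h) (hxP : RingOfIntegers.mapRingHom σ x ∈ P.asIdeal) :
    ∀ a ∈ v, RingOfIntegers.mapRingHom σ a ∈ P.asIdeal := by
  have hle : v ^ h ≤ Ideal.comap (RingOfIntegers.mapRingHom σ) P.asIdeal := by
    rw [← hx, Ideal.span_singleton_le_iff_mem]
    exact hxP
  have hprime : (Ideal.comap (RingOfIntegers.mapRingHom σ) P.asIdeal).IsPrime :=
    Ideal.IsPrime.comap _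
  intro a ha
  have := hprime.mem_of_pow_mem h (hle (Ideal.pow_mem_pow ha h))
  exact this

theorem indep {ι : Type*} [Fintype ι] (σ : ι → (D →+* N)) (hσ : Function.Injective σ) :
    ∃ B : Finset ℕ, ∀ {l : ℕ} (q : Fin l → ℕ), (∀ j, (q j).Prime) → (∀ j, q j ∉ B) →
      Function.Injective q → ∀ (v : Fin l → Ideal (𝓞 D)), (∀ j, Ideal.absNorm (v j) = q j) →
      ∀ (h : Fin l → ℕ), (∀ j, 0 < h j) → ∀ (x : Fin l → 𝓞 D),
      (∀ j, Ideal.span {x j} = v j ^ h j) → ∀ (a : ι → ℤ) (s : Fin l → ℤ), a ≠ 0 → s ≠ 0 →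
        ∏ j, ∏ i, (σ i (x j : D)) ^ (a i * s j) ≠ 1 := by
  classical
  -- separating elements
  have hsep : ∀ i i' : ι, i ≠ i' → ∃ θ : 𝓞 D,
      RingOfIntegers.mapRingHom (σ i) θ ≠ RingOfIntegers.mapRingHom (σ i') θ := by
    intro i i' hii
    by_contra hcon
    push Not at hcon
    apply hii
    apply hσ
    apply IsFractionRing.ringHom_ext (A := 𝓞 D)
    intro θ
    have := congrArg (fun z : 𝓞 N => (z : N)) (hcon θ)
    simpa using this
  choose! θ hθ using hsep
  set E : 𝓞 N := ∏ ij ∈ (Finset.univ : Finset ι).offDiag,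
    (RingOfIntegers.mapRingHom (σ ij.1) (θ ij.1 ij.2) -
      RingOfIntegers.mapRingHom (σ ij.2) (θ ij.1 ij.2)) with hE
  have hE0 : E ≠ 0 := by
    rw [hE, Finset.prod_ne_zero_iff]
    rintro ⟨i, i'⟩ hii
    rw [Finset.mem_offDiag] at hii
    exact sub_ne_zero.mpr (hθ i i' hii.2.2)
  set m := Ideal.absNorm (Ideal.span {E}) with hm
  have hm0 : m ≠ 0 := by
    rw [hm, Ne, Ideal.absNorm_eq_zero_iff, Ideal.span_singleton_eq_bot]
    exact hE0
  refine ⟨m.primeFactors, ?_⟩
  intro l q hq hqB hinj v hv h hh x hx a s ha hs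
  obtain ⟨i, hi⟩ := Function.ne_iff.mp ha
  obtain ⟨j, hj⟩ := Function.ne_iff.mp hs
  obtain ⟨P, hP⟩ := exists_over (σ i) (v j) (hq j) (hv j) (h j) (hh j) (x j) (hx j)
  -- `q j` lies in `P`
  have hqv : ∀ j, ((q j : ℕ) : 𝓞 D) ∈ v j := by
    intro j
    have := Ideal.absNorm_mem (v j)
    rwa [hv j] at this
  have hqP : ((q j : ℕ) : 𝓞 N) ∈ P.asIdeal := by
    have := comap_eq (σ i) P (v j) (h j) (x j) (hx j) hP _ (hqv j)
    simpa using this
  -- other points
  have hother : ∀ j' i', (j' ≠ j ∨ i' ≠ i) →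
      RingOfIntegers.mapRingHom (σ i') (x j') ∉ P.asIdeal := by
    intro j' i' hne hmem
    have h1 := comap_eq (σ i') P (v j') (h j') (x j') (hx j') hmem
    by_cases hjj : j' = j
    · subst hjj
      have hii : i' ≠ i := hne.resolve_left (fun h => h rfl)
      -- `σ i' θ - σ i θ ∈ P`
      obtain ⟨n, hn⟩ := exists_int (v j') (hq j') (hv j') (θ i' i)
      have h2 := h1 _ hn
      have h3 := comap_eq (σ i) P (v j') (h j') (x j') (hx j') hP _ hn
      rw [map_sub, map_intCast] at h2 h3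
      have h4 : RingOfIntegers.mapRingHom (σ i') (θ i' i) -
          RingOfIntegers.mapRingHom (σ i) (θ i' i) ∈ P.asIdeal := by
        have := Ideal.sub_mem _ h2 h3
        rwa [sub_sub_sub_cancel_right] at this
      have h5 : E ∈ P.asIdeal := by
        rw [hE, ← Finset.mul_prod_erase _ _ (a := (i', i)) (Finset.mem_offDiag.mpr
          ⟨Finset.mem_univ i', Finset.mem_univ i, hii⟩)]
        exact Ideal.mul_mem_right _ _ h4
      have h6 : ((m : ℕ) : 𝓞 N) ∈ P.asIdeal := by
        have h7 := Ideal.absNorm_mem (Ideal.span {E})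
        rw [← hm] at h7
        exact (Ideal.span_singleton_le_iff_mem _).mpr h5 h7
      have hco : Nat.Coprime (q j') m := by
        rw [(hq j').coprime_iff_not_dvd]
        intro hdvd
        exact hqB j' (Nat.mem_primeFactors.mpr ⟨hq j', hdvd, hm0⟩)
      apply P.isPrime.ne_top
      rw [Ideal.eq_top_iff_one]
      have h8 := Nat.isCoprime_iff_coprime.mpr hco
      obtain ⟨r, t, hrt⟩ := h8
      have h9 := congrArg (fun z : ℤ => (z : 𝓞 N)) hrt
      simp only [Int.cast_add, Int.cast_mul, Int.cast_natCast, Int.cast_one] at h9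
      rw [← h9]
      exact Ideal.add_mem _ (Ideal.mul_mem_left _ _ hqP) (Ideal.mul_mem_left _ _ h6)
    · have h2 : ((q j' : ℕ) : 𝓞 N) ∈ P.asIdeal := by
        have := h1 _ (hqv j')
        simpa using this
      have hco : Nat.Coprime (q j) (q j') := by
        rw [Nat.coprime_primes (hq j) (hq j')]
        intro h
        exact hjj (hinj h).symm
      apply P.isPrime.ne_top
      rw [Ideal.eq_top_iff_one]
      obtain ⟨r, t, hrt⟩ := Nat.isCoprime_iff_coprime.mpr hco
      have h9 := congrArg (fun z : ℤ => (z : 𝓞 N)) hrt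
      simp only [Int.cast_add, Int.cast_mul, Int.cast_natCast, Int.cast_one] at h9
      rw [← h9]
      exact Ideal.add_mem _ (Ideal.mul_mem_left _ _ hqP) (Ideal.mul_mem_left _ _ h2)
  -- valuations
  have hval : ∀ z : 𝓞 N, z ∉ P.asIdeal → P.valuation N (z : N) = 1 := by
    intro z hz
    refine le_antisymm (P.valuation_le_one z) ?_
    by_contra hlt
    push Not at hlt
    exact hz ((P.valuation_lt_one_iff_mem z).mp hlt)
  intro h1
  have h2 := congrArg (P.valuation N) h1
  rw [map_one, map_prod] at h2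
  simp only [map_prod, map_zpow₀] at h2
  have hcoe : ∀ i' j', σ i' (x j' : D) = ((RingOfIntegers.mapRingHom (σ i') (x j') : 𝓞 N) : N) := by
    intro i' j'
    simp
  rw [Finset.prod_eq_single j] at h2
  · rw [Finset.prod_eq_single i] at h2
    · have hlt : P.valuation N (σ i (x j : D)) < 1 := by
        rw [hcoe]
        exact (P.valuation_lt_one_iff_mem _).mpr hP
      have hne : a i * s j ≠ 0 := mul_ne_zero hi hj
      exact hne ((zpow_eq_one_iff_right₀ zero_le hlt.ne).mp h2)
    · intro i' _ hii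
      rw [hcoe, hval _ (hother j i' (Or.inr hii)), one_zpow]
    · intro h; exact absurd (Finset.mem_univ _) h
  · intro j' _ hjj
    apply Finset.prod_eq_one
    intro i' _
    rw [hcoe, hval _ (hother j' i' (Or.inl hjj)), one_zpow]
  · intro h; exact absurd (Finset.mem_univ _) h

end

end Vale.Agent.P024.H379.W
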