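import Vale.Agent.P024.M3T.Spec
import Vale.Agent.P024.H409.PropD
import Vale.Agent.P024.H379.E
import Vale.Agent.P024.H74.WMain

/-!
P024, block [W6] (helper379): from the multiplicative approximation to `ClosT`, and the choice of
the primes.
-/

namespace Vale.Agent.P024.H379.W

open NumberField IsDedekindDomain Vale.Agent.P024.M3 Vale.Agent.P024.M3T Vale.Agent.P024.H409

section

variable {D : Type*} [Field D] [NumberField D]

theorem dvd_of_Rs {p : ℕ} (hp : p.Prime) (K : ℕ) (z : 𝓞 D) (r : D) (hr : r ∈ Rs D p)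
    (h : (z : D) = (p : D) ^ K * r) : (p : 𝓞 D) ^ K ∣ z := by
  have hp0 : (p : D) ≠ 0 := by exact_mod_cast hp.ne_zero
  have h1 : ∀ w : HeightOneSpectrum (𝓞 D), w.valuation D r ≤ 1 := by
    intro w
    by_cases hw : (p : 𝓞 D) ∈ w.asIdeal
    · exact hr w hw
    · have h2 : w.valuation D (z : D) ≤ 1 := w.valuation_le_one z
      rw [h, map_mul, map_pow, val_nat_eq_one hw, one_pow, one_mul] at h2
      exact h2
  obtain ⟨s, hs⟩ := HeightOneSpectrum.mem_integers_of_valuation_le_one (R := 𝓞 D) D _ h1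
  refine ⟨s, ?_⟩
  apply RingOfIntegers.ext
  rw [h, ← hs]
  push_cast
  rfl

theorem vs_le {p : ℕ} (hp : p.Prime) {l : ℕ} (v : Fin l → HeightOneSpectrum (𝓞 D))
    (hpv : ∀ j, (p : 𝓞 D) ∉ (v j).asIdeal) (h : Fin l → ℕ) (x : Fin l → 𝓞 D)
    (hx : ∀ j, Ideal.span {x j} = (v j).asIdeal ^ h j) (K : ℕ)
    (hK : ∀ k : ℕ, ∀ z : 𝓞 D, (p : 𝓞 D) ^ K ∣ z - 1 →
      ∃ n : Fin l → ℕ, (p : 𝓞 D) ^ k ∣ z - ∏ j, x j ^ n j) (k : ℕ) :
    VS D p K ≤ UFT (Set.range v) ⊔ VS D p k := by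
  have hx0 : ∀ j, x j ≠ 0 := by
    intro j h0
    have h1 : Ideal.span {x j} = ⊥ := by rw [h0]; simp
    rw [hx j] at h1
    exact pow_ne_zero _ (v j).ne_bot h1
  have hxw : ∀ j, ∀ w : HeightOneSpectrum (𝓞 D), w ≠ v j → x j ∉ w.asIdeal := by
    intro j w hw hmem
    apply hw
    have h2 : (v j).asIdeal ^ h j ≤ w.asIdeal := by
      rw [← hx j, Ideal.span_singleton_le_iff_mem]; exact hmem
    have h3 : (v j).asIdeal ≤ w.asIdeal := Ideal.IsPrime.le_of_pow_le h2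
    exact (HeightOneSpectrum.ext ((v j).isMaximal.eq_of_le w.isPrime.ne_top h3)).symm
  intro u hu
  obtain ⟨huR, r0, hr0, h0⟩ := (mem_VS_iff hp).mp hu
  set k' := max k K with hk'
  obtain ⟨z, r1, hr1, h1⟩ := exists_res hp k' (mem_RR_iff.mp huR).1
  -- `z ≡ 1 mod p ^ K`
  have hz : (p : 𝓞 D) ^ K ∣ z - 1 := by
    refine dvd_of_Rs hp K (z - 1) (r0 - (p : D) ^ (k' - K) * r1)
      (sub_mem hr0 (mul_mem (pow_mem_Rs _) hr1)) ?_
    have h2 : (p : D) ^ k' = (p : D) ^ K * (p : D) ^ (k' - K) := by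
      rw [← pow_add]; congr 1; omega
    have h3 : ((z - 1 : 𝓞 D) : D) = (z : D) - 1 := by simp
    rw [h3]
    linear_combination h0 - h1 - r1 * h2
  obtain ⟨n, s, hs⟩ := hK k' z hz
  set y : 𝓞 D := ∏ j, x j ^ n j with hy
  have hy0 : (y : D) ≠ 0 := by
    have : y ≠ 0 := Finset.prod_ne_zero_iff.mpr fun j _ => pow_ne_zero _ (hx0 j)
    exact_mod_cast this
  have hyw : ∀ w : HeightOneSpectrum (𝓞 D), w ∉ Set.range v → w.valuation D (y : D) = 1 := by
    intro w hw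
    refine (w.valuation_eq_one_iff_notMem (K := D)).mpr ?_
    intro hmem
    rw [hy, Ideal.IsPrime.prod_mem_iff] at hmem
    obtain ⟨j, -, hj⟩ := hmem
    exact hxw j w (fun h => hw ⟨j, h.symm⟩) (w.isPrime.mem_of_pow_mem _ hj)
  let yU : Dˣ := Units.mk0 (y : D) hy0
  have hyU : yU ∈ UFT (Set.range v) := fun w hw => hyw w hw
  have hyR : yU ∈ RR D p := by
    intro w hw
    apply hyw
    rintro ⟨j, rfl⟩
    exact hpv j hw
  have h2 : (yU⁻¹ * u : Dˣ) ∈ VS D p k := by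
    refine (mem_VS_iff hp).mpr ⟨mul_mem (inv_mem hyR) huR,
      (p : D) ^ (k' - k) * (((yU⁻¹ : Dˣ) : D) * (r1 + (s : D))), ?_, ?_⟩
    · exact mul_mem (pow_mem_Rs _) (mul_mem (mem_RR_iff.mp (inv_mem hyR)).1
        (add_mem hr1 (fun w _ => w.valuation_le_one s)))
    · have h3 : (p : D) ^ k' = (p : D) ^ k * (p : D) ^ (k' - k) := by
        rw [← pow_add]; congr 1; omega
      have h4 : ((yU⁻¹ : Dˣ) : D) * (y : D) = 1 := by
        rw [Units.val_inv_eq_inv_val]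
        exact inv_mul_cancel₀ hy0
      have h5 : (z : D) - (y : D) = (p : D) ^ k' * (s : D) := by
        have := congrArg (fun t : 𝓞 D => (t : D)) hs
        simpa using this
      rw [Units.val_mul]
      linear_combination ((yU⁻¹ : Dˣ) : D) * (h1 + h5) + h4 +
        ((yU⁻¹ : Dˣ) : D) * (r1 + (s : D)) * h3
  have h3 : u = yU * (yU⁻¹ * u) := by rw [mul_inv_cancel_left]
  rw [h3]
  exact mul_mem (Subgroup.mem_sup_left hyU) (Subgroup.mem_sup_right h2)

/-- the closure of the `T`-units is open -/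
theorem closT_of (p : ℕ) (hp : p.Prime) {l : ℕ} (v : Fin l → HeightOneSpectrum (𝓞 D))
    (hpv : ∀ j, (p : 𝓞 D) ∉ (v j).asIdeal) (h : Fin l → ℕ) (x : Fin l → 𝓞 D)
    (hx : ∀ j, Ideal.span {x j} = (v j).asIdeal ^ h j) (K : ℕ)
    (hK : ∀ k : ℕ, ∀ z : 𝓞 D, (p : 𝓞 D) ^ K ∣ z - 1 →
      ∃ n : Fin l → ℕ, (p : 𝓞 D) ^ k ∣ z - ∏ j, x j ^ n j) :
    ClosT D p (Set.range v) := by
  have h0 := VS_relIndex (L := D) hp K
  refine ⟨(VS D p K).relIndex (RR D p), fun k => ?_⟩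
  have hle := vs_le hp v hpv h x hx K hK k
  refine ⟨?_, Subgroup.relIndex_le_of_le_left hle h0⟩
  intro h1
  apply h0
  have h2 := Subgroup.relIndex_dvd_of_le_left (RR D p) hle
  rw [h1] at h2
  exact Nat.eq_zero_of_zero_dvd h2

/-- the choice of the primes -/
theorem exists_choice (V : Set (HeightOneSpectrum (𝓞 D))) (hV : V.Infinite)
    (hdeg : ∀ v ∈ V, (Ideal.absNorm v.asIdeal).Prime) (B : Finset ℕ) {p : ℕ} (hp : p.Prime)
    (l : ℕ) : ∃ (v : Fin l → HeightOneSpectrum (𝓞 D)) (q : Fin l → ℕ) (x : Fin l → 𝓞 D)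
      (h : Fin l → ℕ), (∀ j, v j ∈ V) ∧ (∀ j, (q j).Prime) ∧
      (∀ j, Ideal.absNorm (v j).asIdeal = q j) ∧ Function.Injective q ∧ (∀ j, q j ∉ B) ∧
      (∀ j, q j ≠ p) ∧ (∀ j, 0 < h j) ∧ (∀ j, Ideal.span {x j} = (v j).asIdeal ^ h j) ∧
      ∀ j, (p : 𝓞 D) ∉ (v j).asIdeal := by
  classical
  set f : HeightOneSpectrum (𝓞 D) → ℕ := fun v => Ideal.absNorm v.asIdeal with hf
  have hfib : ∀ n : ℕ, {v : HeightOneSpectrum (𝓞 D) | f v = n}.Finite := by
    intro n
    rcases Nat.eq_zero_or_pos n with rfl | hn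
    · convert Set.finite_empty
      rw [Set.eq_empty_iff_forall_notMem]
      intro v hv
      have h1 : Ideal.absNorm v.asIdeal = 0 := hv
      rw [Ideal.absNorm_eq_zero_iff] at h1
      exact v.ne_bot h1
    · have h1 := Ideal.finite_setOfPred_absNorm_eq (S := 𝓞 D) n
      refine Set.Finite.of_finite_image (f := HeightOneSpectrum.asIdeal) (h1.subset ?_) ?_
      · rintro _ ⟨v, hv, rfl⟩
        exact hv
      · intro v _ w _ hvw
        exact HeightOneSpectrum.ext hvw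
  have hinf : (f '' V).Infinite := by
    intro hfin
    apply hV
    have : V ⊆ ⋃ n ∈ f '' V, {v | f v = n} := by
      intro v hv
      simp only [Set.mem_iUnion]
      exact ⟨f v, ⟨v, hv, rfl⟩, rfl⟩
    exact (hfin.biUnion fun n _ => hfib n).subset this
  have hinf2 : (f '' V \ ((insert p B : Finset ℕ) : Set ℕ)).Infinite :=
    hinf.sdiff (Finset.finite_toSet _)
  let e := hinf2.natEmbedding
  have he : ∀ j : Fin l, ∃ v ∈ V, f v = (e j : ℕ) := fun j => (e j).2.1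
  choose v hvV hvf using he
  have hnot : ∀ j : Fin l, (e j : ℕ) ∉ insert p B := fun j => by
    have := (e j).2.2
    exact_mod_cast this
  have hq : ∀ j : Fin l, ((e j : ℕ)).Prime := fun j => by
    rw [← hvf j]; exact hdeg _ (hvV j)
  have hgen : ∀ j : Fin l, ∃ x : 𝓞 D, Ideal.span {x} =
      (v j).asIdeal ^ Fintype.card (ClassGroup (𝓞 D)) := by
    intro j
    have hv0 : (v j).asIdeal ∈ nonZeroDivisors (Ideal (𝓞 D)) :=
      mem_nonZeroDivisors_of_ne_zero (v j).ne_bot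
    have h1 : ClassGroup.mk0 ((⟨(v j).asIdeal, hv0⟩ : nonZeroDivisors (Ideal (𝓞 D))) ^
        Fintype.card (ClassGroup (𝓞 D))) = 1 := by
      rw [map_pow]; exact pow_card_eq_one
    rw [ClassGroup.mk0_eq_one_iff] at h1
    obtain ⟨x0, hx0⟩ := h1
    refine ⟨x0, ?_⟩
    rw [← Ideal.submodule_span_eq, ← hx0]
    rfl
  choose x hx using hgen
  refine ⟨v, fun j => e j, x, fun _ => Fintype.card (ClassGroup (𝓞 D)), hvV, hq, hvf, ?_, ?_, ?_,
    fun _ => Fintype.card_pos, hx, ?_⟩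
  · intro i j hij
    have h1 : e i = e j := Subtype.ext hij
    exact Fin.ext (e.injective h1)
  · intro j h1
    exact hnot j (Finset.mem_insert_of_mem h1)
  · intro j h1
    have h2 : (e j : ℕ) = p := h1
    exact hnot j (by rw [h2]; exact Finset.mem_insert_self _ _)
  · intro j hmem
    have h1 : ((e j : ℕ) : 𝓞 D) ∈ (v j).asIdeal := by
      have := Ideal.absNorm_mem (v j).asIdeal
      rwa [show Ideal.absNorm (v j).asIdeal = (e j : ℕ) from hvf j] at this
    have hco : Nat.Coprime p (e j : ℕ) := by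
      rw [Nat.coprime_primes hp (hq j)]
      intro h
      exact hnot j (by rw [← h]; exact Finset.mem_insert_self _ _)
    apply (v j).isPrime.ne_top
    rw [Ideal.eq_top_iff_one]
    obtain ⟨r, t, hrt⟩ := Nat.isCoprime_iff_coprime.mpr hco
    have h9 := congrArg (fun z : ℤ => (z : 𝓞 D)) hrt
    simp only [Int.cast_add, Int.cast_mul, Int.cast_natCast, Int.cast_one] at h9
    rw [← h9]
    exact Ideal.add_mem _ (Ideal.mul_mem_left _ _ hmem) (Ideal.mul_mem_left _ _ h1)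

/-- **Block W.**  For infinitely many primes of degree one there are finitely many among them
whose units are `p`-adically open. -/
theorem w_closT (D : Type*) [Field D] [NumberField D] (V : Set (HeightOneSpectrum (𝓞 D)))
    (hV : V.Infinite) (hdeg : ∀ v ∈ V, (Ideal.absNorm v.asIdeal).Prime) (p : ℕ) [hp : Fact p.Prime]
    (hp2 : p ≠ 2) : ∃ T : Set (HeightOneSpectrum (𝓞 D)), T ⊆ V ∧ T.Finite ∧
      (∀ v ∈ T, (p : 𝓞 D) ∉ v.asIdeal) ∧ ClosT D p T := by
  obtain ⟨l, B, hmain⟩ := Vale.Agent.P024.H74.w_main D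
  obtain ⟨v, q, x, h, hvV, hq, hvq, hinj, hqB, hqp, hh, hx, hpv⟩ :=
    exists_choice V hV hdeg B hp.out l
  obtain ⟨K, hK⟩ := hmain q hq hqB hinj (fun j => (v j).asIdeal) hvq h hh x hx p hp2 hqp
  refine ⟨Set.range v, ?_, Set.finite_range v, ?_, closT_of p hp.out v hpv h x hx K hK⟩
  · rintro _ ⟨j, rfl⟩
    exact hvV j
  · rintro _ ⟨j, rfl⟩
    exact hpv j

end

end Vale.Agent.P024.H379.W
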