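import Mathlib

/-!
P024, block [W] (helper379): the zero estimate for polynomials on the points
`ξ_μ = (∏_j x_{j,σ}^{μ_j})_σ` of a multiplicatively generic system, by resultants.
-/

namespace Vale.Agent.P024.H379.W

open Polynomial in
theorem common_factor {A : Type*} [CommRing A] [IsDomain A] [UniqueFactorizationMonoid A]
    (f g : A[X]) (hf : f.natDegree ≠ 0) (h0 : resultant f g = 0) :
    ∃ p : A[X], Irreducible p ∧ p ∣ f ∧ p ∣ g := by
  classical
  have hf0 : f ≠ 0 := by rintro rfl; simp at hf
  set K := FractionRing A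
  set φ := algebraMap A K
  have hφ : Function.Injective φ := IsFractionRing.injective A K
  have hr : resultant (f.map φ) (g.map φ) = 0 := by
    have := resultant_map_map f g f.natDegree g.natDegree φ
    rw [h0, map_zero] at this
    rw [natDegree_map_eq_of_injective hφ, natDegree_map_eq_of_injective hφ]
    exact this
  have hnc : ¬ IsCoprime (f.map φ) (g.map φ) := (resultant_eq_zero_iff.mp hr).2
  have hf' : f.map φ ≠ 0 := by
    rwa [Ne, Polynomial.map_eq_zero_iff hφ]
  rw [← EuclideanDomain.gcd_isUnit_iff] at hnc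
  obtain ⟨h, hirr, hdvd⟩ := WfDvdMonoid.exists_irreducible_factor hnc
    (by
      intro h
      rw [EuclideanDomain.gcd_eq_zero_iff] at h
      exact hf' h.1)
  have hdf : h ∣ f.map φ := hdvd.trans (EuclideanDomain.gcd_dvd_left _ _)
  have hdg : h ∣ g.map φ := hdvd.trans (EuclideanDomain.gcd_dvd_right _ _)
  have hfac := UniqueFactorizationMonoid.factors_prod hf0
  obtain ⟨u, hu⟩ := hfac
  have h1 : h ∣ ((UniqueFactorizationMonoid.factors f).map (mapRingHom φ)).prod := by
    have : (f.map φ) = ((UniqueFactorizationMonoid.factors f).map (mapRingHom φ)).prod *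
        (u : A[X]).map φ := by
      rw [← map_multiset_prod (mapRingHom φ), ← Polynomial.coe_mapRingHom, ← map_mul, hu]
    rw [this] at hdf
    have hun : IsUnit ((u : A[X]).map φ) := by
      have := (u.isUnit).map (mapRingHom φ)
      simpa using this
    rwa [hun.dvd_mul_right] at hdf
  obtain ⟨p, hp, hpd⟩ := hirr.prime.exists_mem_multiset_map_dvd h1
  have hpi : Irreducible p := UniqueFactorizationMonoid.irreducible_of_factor p hp
  have hpf : p ∣ f := UniqueFactorizationMonoid.dvd_of_mem_factors hp
  have hdeg : p.natDegree ≠ 0 := by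
    intro h0
    rw [Polynomial.natDegree_eq_zero] at h0
    obtain ⟨c, rfl⟩ := h0
    rw [Polynomial.coe_mapRingHom, Polynomial.map_C] at hpd
    have hc : φ c ≠ 0 := by
      intro hc
      rw [map_eq_zero_iff φ hφ] at hc
      rw [hc] at hpi
      exact hpi.ne_zero (by simp)
    exact hirr.not_isUnit (isUnit_of_dvd_unit hpd (isUnit_C.mpr (isUnit_iff_ne_zero.mpr hc)))
  have hprim : p.IsPrimitive := hpi.isPrimitive hdeg
  have hpi' : Irreducible (p.map φ) := (hprim.irreducible_iff_irreducible_map_fraction_map).mp hpi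
  have hass : Associated h (p.map φ) := hirr.associated_of_dvd hpi' hpd
  exact ⟨p, hpi, hpf, hprim.dvd_of_fraction_map_dvd_fraction_map (K := K)
    (hass.symm.dvd.trans hdg)⟩

open MvPolynomial

variable {F : Type*} [Field F]

/-- scaling of the variables -/
noncomputable def tr {ι : Type*} (z : ι → F) : MvPolynomial ι F →ₐ[F] MvPolynomial ι F :=
  aeval (fun s => C (z s) * X s)

/-- the character of exponent `a` at the point `z` -/
def chi {ι : Type*} (z : ι → F) (a : ι →₀ ℕ) : F := a.prod fun s n => z s ^ n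

theorem coeff_tr {ι : Type*} (z : ι → F) (P : MvPolynomial ι F) (a : ι →₀ ℕ) :
    coeff a (tr z P) = chi z a * coeff a P := by
  classical
  induction P using MvPolynomial.induction_on' with
  | monomial u c =>
    have h : tr z (monomial u c) = monomial u (c * chi z u) := by
      rw [tr, aeval_monomial, monomial_eq]
      simp only [mul_pow, algebraMap_eq, chi, map_mul, Finsupp.prod, map_prod,
        map_pow, Finset.prod_mul_distrib]
      ring
    rw [h, coeff_monomial, coeff_monomial]
    split_ifs with h1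
    · rw [h1]; ring
    · ring
  | add p q hp hq => rw [map_add, coeff_add, coeff_add, hp, hq, mul_add]

theorem eval_tr {ι : Type*} (z y : ι → F) (P : MvPolynomial ι F) :
    eval y (tr z P) = eval (fun s => z s * y s) P := by
  rw [tr, aeval_def, ← MvPolynomial.coe_eval₂Hom, MvPolynomial.algebraMap_eq]
  have : ((eval y).comp (eval₂Hom (C : F →+* MvPolynomial ι F) fun s => C (z s) * X s)) =
      eval (fun s => z s * y s) := by
    ext i
    · simp
    · simp
  exact DFunLike.congr_fun this P

theorem tr_tr {ι : Type*} (z w : ι → F) (hzw : ∀ s, z s * w s = 1) (P : MvPolynomial ι F) :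
    tr z (tr w P) = P := by
  have : (tr z).comp (tr w) = AlgHom.id F (MvPolynomial ι F) := by
    apply MvPolynomial.algHom_ext
    intro s
    simp only [tr, AlgHom.comp_apply, aeval_X, map_mul, AlgHom.id_apply]
    rw [MvPolynomial.algHom_C, MvPolynomial.algebraMap_eq, ← mul_assoc, ← C_mul, mul_comm (w s),
      hzw, C_1, one_mul]
  exact DFunLike.congr_fun this P

/-- scaling as an equivalence -/
noncomputable def trE {ι : Type*} (z : ι → F) (hz : ∀ s, z s ≠ 0) :
    MvPolynomial ι F ≃* MvPolynomial ι F where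
  toFun := tr z
  invFun := tr (fun s => (z s)⁻¹)
  left_inv := tr_tr _ _ (fun s => inv_mul_cancel₀ (hz s))
  right_inv := tr_tr _ _ (fun s => mul_inv_cancel₀ (hz s))
  map_mul' := map_mul _

theorem totalDegree_tr_le {ι : Type*} (z : ι → F) (P : MvPolynomial ι F) :
    (tr z P).totalDegree ≤ P.totalDegree := by
  refine Finset.sup_mono ?_
  intro a ha
  rw [mem_support_iff] at ha ⊢
  rw [coeff_tr] at ha
  exact right_ne_zero_of_mul ha

/-- the points -/
def pt {l : ℕ} {ι : Type*} (x : Fin l → ι → F) (μ : Fin l → ℕ) (s : ι) : F := ∏ j, x j s ^ μ j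

/-- genericity of a system of points -/
structure Gen {l : ℕ} {ι : Type*} (x : Fin l → ι → F) : Prop where
  ne : ∀ j s, x j s ≠ 0
  gen : ∀ μ ν : Fin l → ℕ, μ ≠ ν → ∀ a b : ι →₀ ℕ,
    chi (pt x μ) a * chi (pt x ν) b = chi (pt x μ) b * chi (pt x ν) a → a = b

theorem Gen.pt_ne {l : ℕ} {ι : Type*} {x : Fin l → ι → F} (h : Gen x) (μ : Fin l → ℕ) (s : ι) :
    pt x μ s ≠ 0 := Finset.prod_ne_zero_iff.mpr fun j _ => pow_ne_zero _ (h.ne j s)

theorem pt_add {l : ℕ} {ι : Type*} (x : Fin l → ι → F) (μ ν : Fin l → ℕ) (s : ι) :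
    pt x μ s * pt x ν s = pt x (fun j => μ j + ν j) s := by
  simp only [pt, pow_add, Finset.prod_mul_distrib]

theorem chi_cons {d : ℕ} (z : Fin (d + 1) → F) (a : Fin d →₀ ℕ) :
    chi z (Finsupp.cons 0 a) = chi (fun s => z s.succ) a := by
  simp only [chi]
  rw [Finsupp.prod_fintype _ _ (fun i => by simp), Finsupp.prod_fintype _ _ (fun i => by simp),
    Fin.prod_univ_succ]
  simp

theorem Gen.tail {l d : ℕ} {x : Fin l → Fin (d + 1) → F} (h : Gen x) :
    Gen (fun j (s : Fin d) => x j s.succ) := by
  refine ⟨fun j s => h.ne j _, fun μ ν hμν a b hab => ?_⟩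
  have := h.gen μ ν hμν (Finsupp.cons 0 a) (Finsupp.cons 0 b) (by
    simp only [chi_cons]
    exact hab)
  exact Finsupp.cons_right_injective 0 this

theorem card_le_totalDegree {ι : Type*} (s : Multiset (MvPolynomial ι F))
    (hs : ∀ p ∈ s, Irreducible p) : Multiset.card s ≤ s.prod.totalDegree := by
  induction s using Multiset.induction_on with
  | empty => simp
  | cons p s ih =>
    have hp : Irreducible p := hs p (Multiset.mem_cons_self p s)
    have hs' : ∀ q ∈ s, Irreducible q := fun q hq => hs q (Multiset.mem_cons_of_mem hq)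
    have h0 : s.prod ≠ 0 := by
      apply Multiset.prod_ne_zero
      intro h
      exact (hs' 0 h).ne_zero rfl
    rw [Multiset.prod_cons, Multiset.card_cons, totalDegree_mul_of_isDomain hp.ne_zero h0]
    have h1 : 1 ≤ p.totalDegree := by
      by_contra hlt
      have h2 : p.totalDegree = 0 := by omega
      rw [totalDegree_eq_zero_iff_eq_C] at h2
      apply hp.not_isUnit
      rw [isUnit_iff_eq_C_of_isReduced]
      refine ⟨coeff 0 p, ?_, h2⟩
      rw [isUnit_iff_ne_zero]
      intro h3
      rw [h3, C_0] at h2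
      exact hp.ne_zero h2
    have := ih hs'
    omega

theorem monomial_of_assoc {l : ℕ} {ι : Type*} {x : Fin l → ι → F} (h : Gen x) {μ ν : Fin l → ℕ}
    (hμν : μ ≠ ν) (q : MvPolynomial ι F) (hq : Irreducible q)
    (ha : Associated (tr (pt x μ) q) (tr (pt x ν) q)) : ∃ s : ι, X s ∣ q := by
  classical
  obtain ⟨u, hu⟩ := ha
  obtain ⟨c, hc, huc⟩ := isUnit_iff_eq_C_of_isReduced.mp u.isUnit
  have key : ∀ a ∈ q.support, c * chi (pt x μ) a = chi (pt x ν) a := by
    intro a ha
    have h1 := congrArg (coeff a) hu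
    rw [huc, mul_comm, coeff_C_mul, coeff_tr, coeff_tr, ← mul_assoc] at h1
    exact mul_right_cancel₀ (mem_support_iff.mp ha) h1
  have hsub : ∀ a ∈ q.support, ∀ b ∈ q.support, a = b := by
    intro a ha b hb
    apply h.gen μ ν hμν
    rw [← key a ha, ← key b hb]
    ring
  have hne : q.support.Nonempty := by
    rw [Finset.nonempty_iff_ne_empty, Ne, support_eq_empty]
    exact hq.ne_zero
  obtain ⟨a, ha⟩ := hne
  have hqa : q = monomial a (coeff a q) := by
    ext b
    rw [coeff_monomial]
    split_ifs with hab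
    · rw [hab]
    · by_contra hb
      exact hab (hsub a ha b (mem_support_iff.mpr hb))
  have ha0 : a ≠ 0 := by
    rintro rfl
    apply hq.not_isUnit
    rw [isUnit_iff_eq_C_of_isReduced]
    exact ⟨coeff 0 q, isUnit_iff_ne_zero.mpr (mem_support_iff.mp ha), hqa⟩
  obtain ⟨s, hs⟩ := Finsupp.ne_iff.mp ha0
  refine ⟨s, ?_⟩
  rw [hqa, X_dvd_monomial]
  exact Or.inr hs

theorem totalDegree_resultant_le {d : ℕ} (f g : Polynomial (MvPolynomial (Fin d) F)) (m n δ : ℕ)
    (hf : ∀ i, (f.coeff i).totalDegree ≤ δ) (hg : ∀ i, (g.coeff i).totalDegree ≤ δ) :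
    (Polynomial.resultant f g m n).totalDegree ≤ (m + n) * δ := by
  classical
  rw [Polynomial.resultant, Matrix.det_apply]
  apply totalDegree_finsetSum_le
  intro σ _
  refine (totalDegree_smul_le _ _).trans ?_
  refine (totalDegree_finsetProd _ _).trans ?_
  refine (Finset.sum_le_card_nsmul _ _ δ ?_).trans (by simp)
  intro i _
  induction i using Fin.addCases with
  | left i =>
    simp only [Polynomial.sylvester, Matrix.of_apply, Fin.addCases_left]
    split_ifs
    · exact hg _
    · simp
  | right i =>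
    simp only [Polynomial.sylvester, Matrix.of_apply, Fin.addCases_right]
    split_ifs
    · exact hf _
    · simp

theorem zero_est (d : ℕ) : ∀ {l : ℕ} (x : Fin l → Fin d → F), Gen x → ∀ (M δ : ℕ),
    0 < δ → (2 * δ) ^ (2 ^ d) < (M + 1) ^ l → ∀ P : MvPolynomial (Fin d) F, P ≠ 0 →
    P.totalDegree ≤ δ → ∃ μ : Fin l → ℕ, (∀ j, μ j ≤ d * M) ∧ eval (pt x μ) P ≠ 0 := by
  induction d with
  | zero =>
    intro l x hx M δ hδ hM P hP hPδ
    refine ⟨fun _ => 0, fun j => by simp, ?_⟩
    rw [eq_C_of_isEmpty P, eval_C]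
    intro h
    apply hP
    rw [eq_C_of_isEmpty P, h, C_0]
  | succ d ih =>
    intro l x hx M δ hδ hM
    classical
    by_contra hcon
    push Not at hcon
    obtain ⟨P₀, hP₀, hP₀δ, hP₀v⟩ := hcon
    -- minimal counterexample
    have hex : ∃ n : ℕ, ∃ P : MvPolynomial (Fin (d + 1)) F, P ≠ 0 ∧ P.totalDegree ≤ δ ∧
        (∀ μ : Fin l → ℕ, (∀ j, μ j ≤ (d + 1) * M) → eval (pt x μ) P = 0) ∧
        P.totalDegree = n := ⟨_, P₀, hP₀, hP₀δ, hP₀v, rfl⟩
    obtain ⟨P, hP, hPδ, hPv, hPn⟩ := Nat.find_spec hex
    have hmin : ∀ Q : MvPolynomial (Fin (d + 1)) F, Q ≠ 0 → Q.totalDegree ≤ δ →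
        (∀ μ : Fin l → ℕ, (∀ j, μ j ≤ (d + 1) * M) → eval (pt x μ) Q = 0) →
        P.totalDegree ≤ Q.totalDegree := by
      intro Q h1 h2 h3
      rw [hPn]
      exact Nat.find_min' hex ⟨Q, h1, h2, h3, rfl⟩
    -- no monomial factor
    have hX : ∀ s, ¬ X s ∣ P := by
      rintro s ⟨Q, hQ⟩
      have hQ0 : Q ≠ 0 := by rintro rfl; exact hP (by rw [hQ, mul_zero])
      have hdeg : P.totalDegree = 1 + Q.totalDegree := by
        rw [hQ, totalDegree_mul_of_isDomain (X_ne_zero s) hQ0, totalDegree_X]
      have := hmin Q hQ0 (by omega) (by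
        intro μ hμ
        have h1 := hPv μ hμ
        rw [hQ, map_mul, eval_X] at h1
        exact (mul_eq_zero.mp h1).resolve_left (hx.pt_ne μ s))
      omega
    have hx' := hx.tail
    set x' : Fin l → Fin d → F := fun j s => x j s.succ with hx'def
    have hpt : ∀ μ : Fin l → ℕ, pt x μ = (Fin.cons (pt x μ 0) (pt x' μ) : Fin (d + 1) → F) := by
      intro μ
      funext s
      refine Fin.cases ?_ (fun s => ?_) s
      · simp
      · simp [pt, hx'def]
    have hM1 : (2 * δ) ^ (2 ^ d) < (M + 1) ^ l := by
      refine lt_of_le_of_lt (Nat.pow_le_pow_right (by omega) ?_) hM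
      exact Nat.pow_le_pow_right (by norm_num) (by omega)
    have hM2 : (2 * (2 * δ * δ)) ^ (2 ^ d) < (M + 1) ^ l := by
      have : (2 * (2 * δ * δ)) ^ (2 ^ d) = (2 * δ) ^ (2 ^ (d + 1)) := by
        rw [pow_succ 2 d, mul_comm (2 ^ d) 2, pow_mul]
        congr 1
        ring
      rw [this]
      exact hM
    have hcoef : ∀ Q : MvPolynomial (Fin (d + 1)) F, Q.totalDegree ≤ δ → ∀ i,
        ((finSuccEquiv F d Q).coeff i).totalDegree ≤ δ := by
      intro Q hQ i
      by_cases h0 : (finSuccEquiv F d Q).coeff i = 0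
      · rw [h0]; simp
      · have := totalDegree_coeff_finSuccEquiv_add_le Q i h0
        omega
    -- positive degree in the first variable
    set f := finSuccEquiv F d P with hf
    have hf0 : f ≠ 0 := by
      intro h
      rw [hf, EmbeddingLike.map_eq_zero_iff] at h
      exact hP h
    have hfdeg : f.natDegree ≠ 0 := by
      intro h0
      have hC := Polynomial.eq_C_of_natDegree_eq_zero h0
      have hc0 : f.coeff 0 ≠ 0 := by
        intro h
        rw [h, Polynomial.C_0] at hC
        exact hf0 hC
      obtain ⟨μ, hμ, hne⟩ := ih x' hx' M δ hδ hM1 (f.coeff 0) hc0 (hcoef P hPδ 0)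
      apply hne
      have h1 := hPv μ (fun j => (hμ j).trans (Nat.mul_le_mul_right _ (by omega)))
      rw [hpt μ, eval_eq_eval_mv_eval', ← hf, hC] at h1
      simpa using h1
    have hfdegle : f.natDegree ≤ δ := by
      have h1 : f.coeff f.natDegree ≠ 0 := by
        rw [Polynomial.coeff_natDegree]
        exact Polynomial.leadingCoeff_ne_zero.mpr hf0
      have := totalDegree_coeff_finSuccEquiv_add_le P f.natDegree h1
      omega
    -- resultants vanish
    have hres : ∀ ν : Fin l → ℕ, (∀ j, ν j ≤ M) →
        Polynomial.resultant f (finSuccEquiv F d (tr (pt x ν) P)) = 0 := by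
      intro ν hν
      set g := finSuccEquiv F d (tr (pt x ν) P) with hg
      have hgt : (tr (pt x ν) P).totalDegree ≤ δ := (totalDegree_tr_le _ _).trans hPδ
      have hgdegle : g.natDegree ≤ δ := by
        by_cases hg0 : g = 0
        · rw [hg0]; simp
        have h1 : g.coeff g.natDegree ≠ 0 := by
          rw [Polynomial.coeff_natDegree]
          exact Polynomial.leadingCoeff_ne_zero.mpr hg0
        have := totalDegree_coeff_finSuccEquiv_add_le (tr (pt x ν) P) g.natDegree h1
        omega
      by_contra hR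
      obtain ⟨μ, hμ, hne⟩ := ih x' hx' M (2 * δ * δ) (by positivity) hM2
        (Polynomial.resultant f g) hR
        ((totalDegree_resultant_le f g _ _ δ (hcoef P hPδ) (hcoef _ hgt)).trans
          (Nat.mul_le_mul_right _ (by omega)))
      apply hne
      obtain ⟨p, q, -, -, hpq⟩ := Polynomial.exists_mul_add_mul_eq_C_resultant f g le_rfl le_rfl
        (Or.inl hfdeg)
      have h1 := hPv μ (fun j => (hμ j).trans (Nat.mul_le_mul_right _ (by omega)))
      rw [hpt μ, eval_eq_eval_mv_eval', ← hf] at h1
      have h2 : eval (pt x μ) (tr (pt x ν) P) = 0 := by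
        rw [eval_tr]
        have h3 := hPv (fun j => ν j + μ j) (fun j => by
          have := hμ j
          have := hν j
          have : (d + 1) * M = d * M + M := by ring
          omega)
        rw [show (fun s => pt x ν s * pt x μ s) = pt x (fun j => ν j + μ j) from
          funext fun s => pt_add x ν μ s]
        exact h3
      rw [hpt μ, eval_eq_eval_mv_eval', ← hg] at h2
      have h3 := congrArg (fun r => Polynomial.eval (pt x μ 0)
        (Polynomial.map (eval (pt x' μ)) r)) hpq
      simp only [Polynomial.map_add, Polynomial.map_mul, Polynomial.eval_add, Polynomial.eval_mul,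
        h1, h2, zero_mul, add_zero, Polynomial.map_C, Polynomial.eval_C] at h3
      exact h3.symm
    -- common irreducible factors
    have hfac : ∀ ν : Fin l → ℕ, (∀ j, ν j ≤ M) →
        ∃ q ∈ (UniqueFactorizationMonoid.factors P).toFinset,
        ∃ q' ∈ (UniqueFactorizationMonoid.factors P).toFinset,
          Associated (tr (pt x ν) q') q := by
      intro ν hν
      obtain ⟨p, hp, hp1, hp2⟩ := common_factor f _ hfdeg (hres ν hν)
      obtain ⟨r, rfl⟩ := (finSuccEquiv F d).surjective p
      have hr : Irreducible r := (MulEquiv.irreducible_iff (finSuccEquiv F d)).mp hp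
      have hr1 : r ∣ P := (map_dvd_iff (finSuccEquiv F d)).mp hp1
      have hr2 : r ∣ tr (pt x ν) P := (map_dvd_iff (finSuccEquiv F d)).mp hp2
      obtain ⟨q, hq, hrq⟩ := UniqueFactorizationMonoid.exists_mem_factors_of_dvd hP hr hr1
      set e := trE (pt x ν) (hx.pt_ne ν) with he
      obtain ⟨r', hr'⟩ := e.surjective r
      have hr'i : Irreducible r' := by
        rw [← MulEquiv.irreducible_iff e, hr']
        exact hr
      have hr'd : r' ∣ P := by
        rw [← map_dvd_iff e, hr']
        exact hr2
      obtain ⟨q', hq', hrq'⟩ := UniqueFactorizationMonoid.exists_mem_factors_of_dvd hP hr'i hr'd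
      refine ⟨q, Multiset.mem_toFinset.mpr hq, q', Multiset.mem_toFinset.mpr hq', ?_⟩
      have h1 : Associated (e q') (e r') := hrq'.symm.map e
      rw [hr'] at h1
      exact h1.trans hrq
    choose! Q hQ Q' hQ' hQQ using hfac
    set S := (UniqueFactorizationMonoid.factors P).toFinset with hS
    have hScard : S.card ≤ δ := by
      refine (Multiset.toFinset_card_le _).trans ?_
      refine (card_le_totalDegree _ (fun p hp =>
        UniqueFactorizationMonoid.irreducible_of_factor p hp)).trans ?_
      refine (totalDegree_le_of_dvd_of_isDomain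
        (UniqueFactorizationMonoid.factors_prod hP).dvd hP).trans hPδ
    have hpig : (S ×ˢ S).card < (Fintype.piFinset (fun _ : Fin l => Finset.range (M + 1))).card := by
      rw [Finset.card_product, Fintype.card_piFinset]
      simp only [Finset.card_range, Finset.prod_const, Finset.card_univ, Fintype.card_fin]
      refine lt_of_le_of_lt (Nat.mul_le_mul hScard hScard) (lt_of_le_of_lt ?_ hM)
      have h1 : δ * δ ≤ (2 * δ) ^ 2 := by nlinarith
      refine h1.trans (Nat.pow_le_pow_right (by omega) ?_)
      rw [pow_succ]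
      have : 0 < 2 ^ d := by positivity
      omega
    obtain ⟨μ, hμ, ν, hν, hne, heq⟩ := Finset.exists_ne_map_eq_of_card_lt_of_maps_to hpig
      (f := fun ν => (Q ν, Q' ν)) (by
        intro ν hν
        have hν' : ∀ j, ν j ≤ M := by
          intro j
          have := (Fintype.mem_piFinset.mp (Finset.mem_coe.mp hν)) j
          rw [Finset.mem_range] at this
          omega
        exact Finset.mem_coe.mpr (Finset.mem_product.mpr ⟨hQ ν hν', hQ' ν hν'⟩))
    have hμ' : ∀ j, μ j ≤ M := by
      intro j
      have := (Fintype.mem_piFinset.mp hμ) j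
      rw [Finset.mem_range] at this
      omega
    have hν' : ∀ j, ν j ≤ M := by
      intro j
      have := (Fintype.mem_piFinset.mp hν) j
      rw [Finset.mem_range] at this
      omega
    simp only [Prod.mk.injEq] at heq
    have hass : Associated (tr (pt x μ) (Q' μ)) (tr (pt x ν) (Q' μ)) := by
      have h1 := hQQ μ hμ'
      have h2 := hQQ ν hν'
      rw [← heq.1, ← heq.2] at h2
      exact h1.trans h2.symm
    have hmem := Multiset.mem_toFinset.mp (hQ' μ hμ')
    obtain ⟨s, hs⟩ := monomial_of_assoc hx hne (Q' μ)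
      (UniqueFactorizationMonoid.irreducible_of_factor _ hmem) hass
    exact hX s (hs.trans (UniqueFactorizationMonoid.dvd_of_mem_factors hmem))

end Vale.Agent.P024.H379.W
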